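import Mathlib

/-!
The algebraic part of Simons' identity at one point.
-/

namespace Vale.Agent.P224.Simons

open Finset

set_option linter.unusedSectionVars false

variable {ι : Type*} [Fintype ι] [DecidableEq ι]

/-- delta -/
def dl (i j : ι) : ℝ := if i = j then 1 else 0

theorem sum4_swap34 (f : ι → ι → ι → ι → ℝ) :
    ∑ i, ∑ j, ∑ k, ∑ l, f i j k l = ∑ i, ∑ j, ∑ k, ∑ l, f i j l k := by
  refine sum_congr rfl fun i _ => sum_congr rfl fun j _ => ?_
  exact sum_comm

theorem sum4_swap12 (f : ι → ι → ι → ι → ℝ) :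
    ∑ i, ∑ j, ∑ k, ∑ l, f i j k l = ∑ i, ∑ j, ∑ k, ∑ l, f j i k l := sum_comm

theorem sum4_swap14 (f : ι → ι → ι → ι → ℝ) :
    ∑ i, ∑ j, ∑ k, ∑ l, f i j k l = ∑ i, ∑ j, ∑ k, ∑ l, f l j k i := by
  have key : ∀ g : ι → ι → ι → ι → ℝ,
      ∑ i, ∑ j, ∑ k, ∑ l, g i j k l = ∑ j, ∑ k, ∑ i, ∑ l, g i j k l := by
    intro g
    rw [sum_comm]
    exact sum_congr rfl fun j _ => sum_comm
  rw [key, key (fun i j k l => f l j k i)]
  exact sum_congr rfl fun j _ => sum_congr rfl fun k _ => sum_comm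

/-- The algebraic consequence: `S (m - S)` is at most half the Laplacian `2 L` of `S`. -/
theorem simons_algebra_le (h : ι → ι → ℝ) (hsymm : ∀ i j, h i j = h j i)
    (htr : ∑ i, h i i = 0)
    (h1 : ι → ι → ι → ℝ)
    (w q : ι → ι → ι → ι → ℝ)
    (w12 : ∀ i j k l, w i j k l = w j i k l) (w23 : ∀ i j k l, w i j k l = w i k j l)
    (q12 : ∀ i j k l, q i j k l = q j i k l) (q23 : ∀ i j k l, q i j k l = q i k j l)
    (q34 : ∀ i j k l, q i j k l = q i j l k)
    (h2 g2 M2 : ι → ι → ι → ι → ℝ)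
    (hh2 : ∀ i j k a, h2 i j k a = q i j k a - (∑ l, h l a * w i j k l)
      - (∑ l, h l k * w i j a l) - h i j * (∑ l, h k l * h l a) - dl i j * h k a)
    (hg2 : ∀ i j a b, g2 i j a b = w i a b j + w j a b i
      + (h i b * h j a + dl i b * dl j a) + (h i a * h j b + dl i a * dl j b))
    (hM2 : ∀ i j a b, M2 i j a b + ∑ l, g2 i l a b * h l j = h2 i j a b)
    (htr2 : ∀ a b, ∑ i, M2 i i a b = 0) (L : ℝ)
    (hS2 : ∑ a, ∑ i, ∑ j, (h i j * M2 i j a a + h1 i j a * h1 i j a) = L) :
    (∑ i, ∑ j, h i j * h i j) * ((Fintype.card ι : ℝ) - ∑ i, ∑ j, h i j * h i j) ≤ L := by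
  set S := ∑ i, ∑ j, h i j * h i j with hSdef
  set A := ∑ i, ∑ j, ∑ k, ∑ l, h i j * h l k * w i j k l with hAdef
  set B := ∑ i, ∑ j, ∑ k, ∑ l, h i j * h l j * w i k k l with hBdef
  set H := ∑ i, ∑ j, ∑ k, ∑ l, h i j * h l j * (h i k * h l k) with hHdef
  set Q := ∑ i, ∑ j, ∑ k, h i j * q i j k k with hQdef
  -- X
  have hX : ∑ i, ∑ j, ∑ k, h i j * h2 i j k k = Q - 2 * A - S * S := by
    have e : ∀ i j k, h i j * h2 i j k k = h i j * q i j k k
        - 2 * (∑ l, h i j * h l k * w i j k l)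
        - (h i j * h i j) * (∑ l, h k l * h k l) - dl i j * h i j * h k k := by
      intro i j k
      have : (∑ l, h k l * h l k) = ∑ l, h k l * h k l :=
        sum_congr rfl fun l _ => by rw [hsymm l k]
      have hs : ∑ l, h i j * h l k * w i j k l = h i j * ∑ l, h l k * w i j k l := by
        rw [Finset.mul_sum]; simp only [mul_assoc]
      rw [hh2, this, hs]
      ring
    have t1 : ∑ i, ∑ j, ∑ k, 2 * (∑ l, h i j * h l k * w i j k l) = 2 * A := by
      simp only [hAdef, ← Finset.mul_sum]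
    have t2 : ∑ i, ∑ j, ∑ k, (h i j * h i j) * (∑ l, h k l * h k l) = S * S := by
      simp only [← Finset.mul_sum, ← hSdef, ← Finset.sum_mul]
    have t3 : ∑ i, ∑ j, ∑ k, dl i j * h i j * h k k = 0 := by
      simp only [← Finset.mul_sum, htr, mul_zero, sum_const_zero]
    simp only [e, sum_sub_distrib]
    rw [← hQdef, t1, t2, t3]
    ring
  -- Y
  have hY : ∑ i, ∑ j, ∑ k, h i j * h2 k k i j
      = Q - 2 * B - (Fintype.card ι : ℝ) * S := by
    have e : ∀ i j k, h i j * h2 k k i j = h i j * q i j k k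
        - (∑ l, h i j * h l j * w i k k l) - (∑ l, h i j * h l i * w j k k l)
        - (h i j * ∑ l, h i l * h l j) * h k k - h i j * h i j := by
      intro i j k
      have hq : q k k i j = q i j k k := by
        rw [q23 k k i j, q12 k i k j, q34 i k k j, q23 i k j k]
      have hw : ∀ a l, w k k a l = w a k k l := by
        intro a l; rw [w23 k k a l, w12 k a k l]
      rw [hh2, hq]
      simp only [hw, dl, if_pos, Finset.mul_sum, Finset.sum_mul, mul_sub, mul_assoc]
      have hc : ∀ l, h i j * (h i l * (h l j * h k k)) = h i j * (h k k * (h i l * h l j)) :=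
        fun l => by ring
      simp only [hc]
      ring
    simp only [e, sum_sub_distrib]
    rw [← hQdef, ← hBdef]
    have t1 : ∑ i, ∑ j, ∑ k, ∑ l, h i j * h l i * w j k k l = B := by
      rw [sum4_swap12, hBdef]
      refine sum_congr rfl fun i _ => sum_congr rfl fun j _ => sum_congr rfl fun k _ =>
        sum_congr rfl fun l _ => ?_
      rw [hsymm j i]
    have t2 : ∑ i, ∑ j, ∑ k, (h i j * ∑ l, h i l * h l j) * h k k = 0 := by
      simp only [← Finset.mul_sum, htr, mul_zero, sum_const_zero]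
    rw [t1, t2]
    simp only [sum_const, card_univ, nsmul_eq_mul, ← Finset.mul_sum]
    rw [← hSdef]
    ring
  -- the second derivative of the trace
  have hY' : ∑ i, ∑ j, ∑ k, h i j * h2 k k i j = 2 * A + 2 * H + 2 * S := by
    have e : ∀ i j, ∑ k, h2 k k i j = ∑ k, ∑ l, g2 k l i j * h l k := by
      intro i j
      have := htr2 i j
      calc ∑ k, h2 k k i j = ∑ k, (M2 k k i j + ∑ l, g2 k l i j * h l k) :=
            sum_congr rfl fun k _ => (hM2 k k i j).symm
        _ = _ := by rw [sum_add_distrib, this, zero_add]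
    have e' : ∀ i j k l, h i j * (g2 k l i j * h l k) = h i j * h l k * w i j k l
        + h i j * h l k * w i j l k
        + h i j * h l k * (h k j * h l i) + h i j * h l k * (h k i * h l j)
        + h i j * h l k * (dl k j * dl l i) + h i j * h l k * (dl k i * dl l j) := by
      intro i j k l
      rw [hg2, w12 k i j l, w23 i k j l, w12 l i j k, w23 i l j k]
      ring
    simp only [← Finset.mul_sum, e]
    simp only [Finset.mul_sum, e', sum_add_distrib]
    rw [← hAdef]
    have t1 : ∑ i, ∑ j, ∑ k, ∑ l, h i j * h l k * w i j l k = A := by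
      rw [sum4_swap34, hAdef]
      refine sum_congr rfl fun i _ => sum_congr rfl fun j _ => sum_congr rfl fun k _ =>
        sum_congr rfl fun l _ => ?_
      rw [hsymm k l]
    have t2 : ∑ i, ∑ j, ∑ k, ∑ l, h i j * h l k * (h k j * h l i) = H := by
      rw [sum4_swap34, hHdef]
      refine sum_congr rfl fun i _ => sum_congr rfl fun j _ => sum_congr rfl fun k _ =>
        sum_congr rfl fun l _ => ?_
      rw [hsymm k l, hsymm k i]; ring
    have t3 : ∑ i, ∑ j, ∑ k, ∑ l, h i j * h l k * (h k i * h l j) = H := by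
      rw [hHdef]
      refine sum_congr rfl fun i _ => sum_congr rfl fun j _ => sum_congr rfl fun k _ =>
        sum_congr rfl fun l _ => ?_
      rw [hsymm k i]; ring
    have t4 : ∑ i, ∑ j, ∑ k, ∑ l, h i j * h l k * (dl k j * dl l i) = S := by
      simp [dl, hSdef]
    have t5 : ∑ i, ∑ j, ∑ k, ∑ l, h i j * h l k * (dl k i * dl l j) = S := by
      rw [hSdef]; simp [dl]
      exact sum_congr rfl fun i _ => sum_congr rfl fun j _ => by rw [hsymm j i]
    rw [t1, t2, t3, t4, t5]
    ring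
  -- Z
  have hZ : ∑ i, ∑ j, ∑ k, h i j * (∑ l, g2 i l k k * h l j) = 2 * B + 2 * H + 2 * S := by
    have e' : ∀ i j k l, h i j * (g2 i l k k * h l j) = h i j * h l j * w i k k l
        + h i j * h l j * w l k k i
        + 2 * (h i j * h l j * (h i k * h l k)) + 2 * (h i j * h l j * (dl i k * dl l k)) := by
      intro i j k l
      rw [hg2]
      ring
    simp only [Finset.mul_sum, e', sum_add_distrib]
    simp only [← Finset.mul_sum]
    rw [← hBdef, ← hHdef]
    have t1 : ∑ i, ∑ j, ∑ k, ∑ l, h i j * h l j * w l k k i = B := by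
      rw [sum4_swap14, hBdef]
      refine sum_congr rfl fun i _ => sum_congr rfl fun j _ => sum_congr rfl fun k _ =>
        sum_congr rfl fun l _ => ?_
      ring
    have t2 : ∑ i, ∑ j, ∑ k, ∑ l, h i j * h l j * (dl i k * dl l k) = S := by
      simp [dl, hSdef]
    rw [t1, t2]
    ring
  -- conclusion
  have hfin : ∑ i, ∑ j, ∑ k, (h i j * h2 i j k k - h i j * (∑ l, g2 i l k k * h l j)
      + h1 i j k * h1 i j k) = L := by
    have : ∀ i j k, h i j * h2 i j k k - h i j * (∑ l, g2 i l k k * h l j)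
        + h1 i j k * h1 i j k = h i j * M2 i j k k + h1 i j k * h1 i j k := by
      intro i j k; rw [← hM2 i j k k]; ring
    simp only [this]
    calc _ = ∑ i, ∑ k, ∑ j, (h i j * M2 i j k k + h1 i j k * h1 i j k) :=
          sum_congr rfl fun i _ => sum_comm
      _ = ∑ k, ∑ i, ∑ j, (h i j * M2 i j k k + h1 i j k * h1 i j k) := sum_comm
      _ = L := hS2
  simp only [sum_add_distrib, sum_sub_distrib] at hfin
  rw [hX, hZ] at hfin
  have hpos : 0 ≤ ∑ i, ∑ j, ∑ k, h1 i j k * h1 i j k :=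
    sum_nonneg fun i _ => sum_nonneg fun j _ => sum_nonneg fun k _ => mul_self_nonneg _
  have hYY := hY.symm.trans hY'
  nlinarith [hfin, hpos, hYY]

/-- The case of constant `S`: `S (m - S) ≤ 0`. -/
theorem simons_algebra (h : ι → ι → ℝ) (hsymm : ∀ i j, h i j = h j i)
    (htr : ∑ i, h i i = 0) (h1 : ι → ι → ι → ℝ)
    (w q : ι → ι → ι → ι → ℝ)
    (w12 : ∀ i j k l, w i j k l = w j i k l) (w23 : ∀ i j k l, w i j k l = w i k j l)
    (q12 : ∀ i j k l, q i j k l = q j i k l) (q23 : ∀ i j k l, q i j k l = q i k j l)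
    (q34 : ∀ i j k l, q i j k l = q i j l k)
    (h2 g2 M2 : ι → ι → ι → ι → ℝ)
    (hh2 : ∀ i j k a, h2 i j k a = q i j k a - (∑ l, h l a * w i j k l)
      - (∑ l, h l k * w i j a l) - h i j * (∑ l, h k l * h l a) - dl i j * h k a)
    (hg2 : ∀ i j a b, g2 i j a b = w i a b j + w j a b i
      + (h i b * h j a + dl i b * dl j a) + (h i a * h j b + dl i a * dl j b))
    (hM2 : ∀ i j a b, M2 i j a b + ∑ l, g2 i l a b * h l j = h2 i j a b)
    (htr2 : ∀ a b, ∑ i, M2 i i a b = 0)
    (hS2 : ∀ a, ∑ i, ∑ j, (h i j * M2 i j a a + h1 i j a * h1 i j a) = 0) :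
    (∑ i, ∑ j, h i j * h i j) * ((Fintype.card ι : ℝ) - ∑ i, ∑ j, h i j * h i j) ≤ 0 :=
  simons_algebra_le h hsymm htr h1 w q w12 w23 q12 q23 q34 h2 g2 M2 hh2 hg2 hM2 htr2 0
    (by simp only [hS2, sum_const_zero])

end Vale.Agent.P224.Simons
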