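import Mathlib

/-!
Coordinate derivatives for maps defined on an open subset of `ℝ^m`.
-/

namespace Vale.Agent.P224.Simons

open scoped RealInnerProductSpace ContDiff Topology

variable {m : ℕ} {W : Type*} [NormedAddCommGroup W] [NormedSpace ℝ W]

/-- partial derivative in the `i`-th coordinate -/
noncomputable def D (f : (Fin m → ℝ) → W) (i : Fin m) : (Fin m → ℝ) → W :=
  fun x => fderiv ℝ f x (Pi.single i 1)

variable {U : Set (Fin m → ℝ)}

theorem diffAt (hU : IsOpen U) {f : (Fin m → ℝ) → W} (hf : ContDiffOn ℝ ∞ f U)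
    {x : Fin m → ℝ} (hx : x ∈ U) : DifferentiableAt ℝ f x :=
  (hf.contDiffAt (hU.mem_nhds hx)).differentiableAt (by simp)

theorem D_smooth (hU : IsOpen U) {f : (Fin m → ℝ) → W} (hf : ContDiffOn ℝ ∞ f U) (i : Fin m) :
    ContDiffOn ℝ ∞ (D f i) U := by
  have h := hf.fderiv_of_isOpen hU (m := ∞) (by simp)
  exact h.clm_apply contDiffOn_const

theorem D_congr (hU : IsOpen U) {f g : (Fin m → ℝ) → W} (h : Set.EqOn f g U)
    (i : Fin m) {x : Fin m → ℝ} (hx : x ∈ U) : D f i x = D g i x := by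
  have : f =ᶠ[𝓝 x] g := Filter.eventuallyEq_of_mem (hU.mem_nhds hx) h
  simp only [D, this.fderiv_eq]

theorem D_const_eq (hU : IsOpen U) {f : (Fin m → ℝ) → W} {a : W} (h : ∀ x ∈ U, f x = a)
    (i : Fin m) {x : Fin m → ℝ} (hx : x ∈ U) : D f i x = 0 := by
  rw [D_congr hU (g := fun _ => a) h i hx]
  simp [D]

theorem D_comm (hU : IsOpen U) {f : (Fin m → ℝ) → W} (hf : ContDiffOn ℝ ∞ f U)
    (i j : Fin m) {x : Fin m → ℝ} (hx : x ∈ U) : D (D f i) j x = D (D f j) i x := by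
  have hs : IsSymmSndFDerivAt ℝ f x :=
    (hf.contDiffAt (hU.mem_nhds hx)).isSymmSndFDerivAt
      (by simp only [minSmoothness_of_isRCLikeNormedField]; exact WithTop.coe_le_coe.mpr le_top)
  have hd : DifferentiableAt ℝ (fderiv ℝ f) x := by
    have h := hf.fderiv_of_isOpen hU (m := ∞) (by simp)
    exact diffAt hU h hx
  have hk : ∀ a b : Fin m, D (D f a) b x
      = fderiv ℝ (fderiv ℝ f) x (Pi.single b 1) (Pi.single a 1) := by
    intro a b
    unfold D
    rw [fderiv_clm_apply hd (differentiableAt_const _)]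
    simp
  rw [hk, hk, hs.eq]

theorem D_sum (hU : IsOpen U) {ι : Type*} (s : Finset ι) {f : ι → (Fin m → ℝ) → W}
    (hf : ∀ k, ContDiffOn ℝ ∞ (f k) U) (i : Fin m) {x : Fin m → ℝ} (hx : x ∈ U) :
    D (fun y => ∑ k ∈ s, f k y) i x = ∑ k ∈ s, D (f k) i x := by
  unfold D
  rw [fderiv_fun_sum (fun k _ => diffAt hU (hf k) hx)]
  simp

theorem D_add (hU : IsOpen U) {f g : (Fin m → ℝ) → W} (hf : ContDiffOn ℝ ∞ f U)
    (hg : ContDiffOn ℝ ∞ g U) (i : Fin m) {x : Fin m → ℝ} (hx : x ∈ U) :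
    D (fun y => f y + g y) i x = D f i x + D g i x := by
  unfold D
  rw [fderiv_fun_add (diffAt hU hf hx) (diffAt hU hg hx)]
  simp

theorem D_mul (hU : IsOpen U) {f g : (Fin m → ℝ) → ℝ} (hf : ContDiffOn ℝ ∞ f U)
    (hg : ContDiffOn ℝ ∞ g U) (i : Fin m) {x : Fin m → ℝ} (hx : x ∈ U) :
    D (fun y => f y * g y) i x = f x * D g i x + D f i x * g x := by
  unfold D
  rw [fderiv_fun_mul (diffAt hU hf hx) (diffAt hU hg hx)]
  simp [mul_comm]

variable {V : Type*} [NormedAddCommGroup V] [InnerProductSpace ℝ V]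

theorem D_inner (hU : IsOpen U) {f g : (Fin m → ℝ) → V} (hf : ContDiffOn ℝ ∞ f U)
    (hg : ContDiffOn ℝ ∞ g U) (i : Fin m) {x : Fin m → ℝ} (hx : x ∈ U) :
    D (fun y => ⟪f y, g y⟫) i x = ⟪f x, D g i x⟫ + ⟪D f i x, g x⟫ := by
  unfold D
  rw [fderiv_inner_apply ℝ (diffAt hU hf hx) (diffAt hU hg hx)]

end Vale.Agent.P224.Simons
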