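import Mathlib
import Vale.Agent.P224.Simons.Calc
import Vale.Agent.P224.Simons.Algebra

/-!
Simons' inequality at a point of a minimal hypersurface of the sphere with constant `|A|^2`,
in coordinates adapted to the point.
-/

namespace Vale.Agent.P224.Simons

open scoped RealInnerProductSpace ContDiff Topology

variable {m : ℕ}

/-- Expansion of inner products in the adapted frame. -/
theorem frame_expand (v : Fin m → EuclideanSpace ℝ (Fin (m + 2)))
    (N P : EuclideanSpace ℝ (Fin (m + 2)))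
    (hv : ∀ i j, ⟪v i, v j⟫ = if i = j then (1:ℝ) else 0)
    (hN : ⟪N, N⟫ = (1:ℝ)) (hP : ⟪P, P⟫ = (1:ℝ)) (hNP : ⟪N, P⟫ = (0:ℝ))
    (hvN : ∀ i, ⟪v i, N⟫ = (0:ℝ)) (hvP : ∀ i, ⟪v i, P⟫ = (0:ℝ))
    (a b : EuclideanSpace ℝ (Fin (m + 2))) :
    ⟪a, b⟫ = (∑ l, ⟪a, v l⟫ * ⟪b, v l⟫) + ⟪a, N⟫ * ⟪b, N⟫ + ⟪a, P⟫ * ⟪b, P⟫ := by
  set f : Fin m ⊕ Fin 2 → EuclideanSpace ℝ (Fin (m + 2)) := Sum.elim v ![N, P] with hf
  have hon : Orthonormal ℝ f := by
    rw [orthonormal_iff_ite]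
    have hPN : ⟪P, N⟫ = (0:ℝ) := by rw [real_inner_comm]; exact hNP
    have hNv : ∀ i, ⟪N, v i⟫ = (0:ℝ) := fun i => by rw [real_inner_comm]; exact hvN i
    have hPv : ∀ i, ⟪P, v i⟫ = (0:ℝ) := fun i => by rw [real_inner_comm]; exact hvP i
    rintro (i | i) (j | j)
    · simp only [hf, Sum.elim_inl, hv, Sum.inl.injEq]
    · fin_cases j <;> simp [hf, hvN, hvP]
    · fin_cases i <;> simp [hf, hNv, hPv]
    · have hN' : ‖N‖ = 1 := by nlinarith [real_inner_self_eq_norm_sq N, norm_nonneg N]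
      have hP' : ‖P‖ = 1 := by nlinarith [real_inner_self_eq_norm_sq P, norm_nonneg P]
      fin_cases i <;> fin_cases j <;> simp [hf, hN', hP', hNP, hPN]
  have hcard : Fintype.card (Fin m ⊕ Fin 2)
      = Module.finrank ℝ (EuclideanSpace ℝ (Fin (m + 2))) := by simp
  have : Nonempty (Fin m ⊕ Fin 2) := ⟨Sum.inr 0⟩
  set B := OrthonormalBasis.mk hon
    (by rw [← coe_basisOfOrthonormalOfCardEqFinrank hon hcard, Module.Basis.span_eq]) with hB
  rw [← B.sum_inner_mul_inner a b]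
  have hc : ∀ i, B i = f i := fun i => by simp [hB]
  simp only [hc, Fintype.sum_sum_type, Fin.sum_univ_two, hf, Sum.elim_inl, Sum.elim_inr,
    Matrix.cons_val_zero, Matrix.cons_val_one, real_inner_comm b]
  ring

/-- Simons' inequality at the origin of adapted coordinates. -/
theorem simons_point_le {U : Set (Fin m → ℝ)} (hU : IsOpen U) (h0 : (0 : Fin m → ℝ) ∈ U)
    {F ν : (Fin m → ℝ) → EuclideanSpace ℝ (Fin (m + 2))}
    (hF : ContDiffOn ℝ ∞ F U) (hν : ContDiffOn ℝ ∞ ν U)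
    (hFF : ∀ x ∈ U, ⟪F x, F x⟫ = (1:ℝ)) (hνν : ∀ x ∈ U, ⟪ν x, ν x⟫ = (1:ℝ))
    (hνF : ∀ x ∈ U, ⟪ν x, F x⟫ = (0:ℝ))
    (hνT : ∀ x ∈ U, ∀ i, ⟪ν x, D F i x⟫ = (0:ℝ))
    (horth : ∀ i j, ⟪D F i 0, D F j 0⟫ = if i = j then (1:ℝ) else 0)
    (htan : ∀ i j l, ⟪D (D F i) j 0, D F l 0⟫ = (0:ℝ))
    (M : Fin m → Fin m → (Fin m → ℝ) → ℝ) (hMs : ∀ i j, ContDiffOn ℝ ∞ (M i j) U)
    (hM : ∀ x ∈ U, ∀ i j, ∑ l, ⟪D F i x, D F l x⟫ * M l j x = -⟪D F i x, D ν j x⟫)
    (htr : ∀ x ∈ U, ∑ i, M i i x = 0) (Φ : (Fin m → ℝ) → ℝ)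
    (hΦ : ∀ x ∈ U, Φ x = ∑ i, ∑ j, M i j x * M j i x) :
    2 * Φ 0 * ((m : ℝ) - Φ 0) ≤ ∑ a, D (D Φ a) a 0 := by
  have s1 : ∀ i, ContDiffOn ℝ ∞ (D F i) U := fun i => D_smooth hU hF i
  have s2 : ∀ i j, ContDiffOn ℝ ∞ (D (D F i) j) U := fun i j => D_smooth hU (s1 i) j
  have s3 : ∀ i j k, ContDiffOn ℝ ∞ (D (D (D F i) j) k) U := fun i j k => D_smooth hU (s2 i j) k
  have t1 : ∀ i, ContDiffOn ℝ ∞ (D ν i) U := fun i => D_smooth hU hν i
  have m1 : ∀ i j a, ContDiffOn ℝ ∞ (D (M i j) a) U := fun i j a => D_smooth hU (hMs i j) a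
  -- first order identities on U
  have eF1 : ∀ x ∈ U, ∀ i, ⟪F x, D F i x⟫ = (0:ℝ) := by
    intro x hx i
    have := D_const_eq hU hFF i hx
    rw [D_inner hU hF hF i hx, real_inner_comm (F x) (D F i x)] at this
    linarith
  have eν1 : ∀ x ∈ U, ∀ i, ⟪ν x, D ν i x⟫ = (0:ℝ) := by
    intro x hx i
    have := D_const_eq hU hνν i hx
    rw [D_inner hU hν hν i hx, real_inner_comm (ν x) (D ν i x)] at this
    linarith
  have eν1F : ∀ x ∈ U, ∀ i, ⟪D ν i x, F x⟫ = (0:ℝ) := by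
    intro x hx i
    have := D_const_eq hU hνF i hx
    rw [D_inner hU hν hF i hx, hνT x hx i] at this
    linarith
  have eh : ∀ x ∈ U, ∀ i j, ⟪D F i x, D ν j x⟫ = -⟪D (D F i) j x, ν x⟫ := by
    intro x hx i j
    have := D_const_eq hU (fun y hy => hνT y hy i) j hx
    rw [D_inner hU hν (s1 i) j hx] at this
    rw [real_inner_comm (D ν j x), real_inner_comm (ν x)]
    linarith
  have eF2 : ∀ x ∈ U, ∀ i j, ⟪D (D F i) j x, F x⟫ = -⟪D F i x, D F j x⟫ := by
    intro x hx i j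
    have := D_const_eq hU (fun y hy => eF1 y hy i) j hx
    rw [D_inner hU hF (s1 i) j hx] at this
    rw [real_inner_comm (F x), real_inner_comm (D F j x)]
    linarith
  -- data at the origin
  set h : Fin m → Fin m → ℝ := fun i j => ⟪D (D F i) j 0, ν 0⟫ with hh
  have hsymm : ∀ i j, h i j = h j i := by
    intro i j; simp only [hh, D_comm hU hF i j h0]
  have exp := frame_expand (fun l => D F l 0) (ν 0) (F 0) horth (hνν 0 h0) (hFF 0 h0) (hνF 0 h0)
    (fun i => by rw [real_inner_comm]; exact hνT 0 h0 i)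
    (fun i => by rw [real_inner_comm]; exact eF1 0 h0 i)
  set w : Fin m → Fin m → Fin m → Fin m → ℝ :=
    fun i j k l => ⟪D (D (D F i) j) k 0, D F l 0⟫ with hw
  set q : Fin m → Fin m → Fin m → Fin m → ℝ :=
    fun i j k a => ⟪D (D (D (D F i) j) k) a 0, ν 0⟫ with hq
  have e2F : ∀ i j, ⟪D (D F i) j 0, F 0⟫ = -dl i j := by
    intro i j; rw [eF2 0 h0, horth]; rfl
  have eν1T : ∀ l k, ⟪D ν k 0, D F l 0⟫ = -h l k := by
    intro l k; rw [real_inner_comm, eh 0 h0]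
  have eν10 : ∀ k, ⟪D ν k 0, ν 0⟫ = (0:ℝ) := fun k => by rw [real_inner_comm]; exact eν1 0 h0 k
  have e3ν : ∀ i j k a, ⟪D (D (D F i) j) k 0, D ν a 0⟫ = -∑ l, h l a * w i j k l := by
    intro i j k a
    rw [exp]
    simp only [eν1T, eν10, eν1F 0 h0, mul_zero, add_zero, mul_neg, Finset.sum_neg_distrib, hw]
    simp only [mul_comm]
  have eνν2 : ∀ k a, ⟪D (D ν k) a 0, ν 0⟫ = -∑ l, h k l * h l a := by
    intro k a
    have := D_const_eq hU (fun y hy => eν1 y hy k) a h0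
    rw [D_inner hU hν (t1 k) a h0, exp (D ν a 0) (D ν k 0)] at this
    simp only [eν1T, eν10, eν1F 0 h0, mul_zero, add_zero, neg_mul_neg] at this
    rw [real_inner_comm]
    have hl : ∑ l, h k l * h l a = ∑ l, h l a * h l k :=
      Finset.sum_congr rfl fun l _ => by rw [hsymm k l, mul_comm]
    linarith
  have eνF2 : ∀ k a, ⟪D (D ν k) a 0, F 0⟫ = h k a := by
    intro k a
    have := D_const_eq hU (fun y hy => eν1F y hy k) a h0
    rw [D_inner hU (t1 k) hF a h0, eν1T] at this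
    linarith [hsymm k a]
  -- second derivatives of h
  have dh : ∀ i j k, ∀ x ∈ U, D (fun y => ⟪D (D F i) j y, ν y⟫) k x
      = ⟪D (D F i) j x, D ν k x⟫ + ⟪D (D (D F i) j) k x, ν x⟫ :=
    fun i j k x hx => D_inner hU (s2 i j) hν k hx
  set h1 : Fin m → Fin m → Fin m → ℝ :=
    fun i j k => D (fun y => ⟪D (D F i) j y, ν y⟫) k 0 with hh1
  set h2 : Fin m → Fin m → Fin m → Fin m → ℝ :=
    fun i j k a => D (D (fun y => ⟪D (D F i) j y, ν y⟫) k) a 0 with hh2d
  have hh2 : ∀ i j k a, h2 i j k a = q i j k a - (∑ l, h l a * w i j k l)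
      - (∑ l, h l k * w i j a l) - h i j * (∑ l, h k l * h l a) - dl i j * h k a := by
    intro i j k a
    simp only [hh2d]
    rw [D_congr hU (dh i j k) a h0,
      D_add hU ((s2 i j).inner ℝ (t1 k)) ((s3 i j k).inner ℝ hν) a h0,
      D_inner hU (s2 i j) (t1 k) a h0, D_inner hU (s3 i j k) hν a h0,
      exp (D (D F i) j 0) (D (D ν k) a 0), e3ν, e3ν]
    simp only [htan, zero_mul, Finset.sum_const_zero, zero_add, eνν2, eνF2, e2F, hq, hh]
    ring
  -- second derivatives of g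
  have hgs : ∀ i j, ContDiffOn ℝ ∞ (fun y => ⟪D F i y, D F j y⟫) U :=
    fun i j => (s1 i).inner ℝ (s1 j)
  have dg : ∀ i j a, ∀ x ∈ U, D (fun y => ⟪D F i y, D F j y⟫) a x
      = ⟪D F i x, D (D F j) a x⟫ + ⟪D (D F i) a x, D F j x⟫ :=
    fun i j a x hx => D_inner hU (s1 i) (s1 j) a hx
  have g10 : ∀ i j a, D (fun y => ⟪D F i y, D F j y⟫) a 0 = 0 := by
    intro i j a
    rw [dg i j a 0 h0, real_inner_comm (D (D F j) a 0), htan, htan, add_zero]
  set g2 : Fin m → Fin m → Fin m → Fin m → ℝ :=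
    fun i j a b => D (D (fun y => ⟪D F i y, D F j y⟫) a) b 0 with hg2d
  have e22 : ∀ i j k l, ⟪D (D F i) j 0, D (D F k) l 0⟫ = h i j * h k l + dl i j * dl k l := by
    intro i j k l
    rw [exp]
    simp only [htan, mul_zero, Finset.sum_const_zero, zero_add, e2F, hh, neg_mul_neg]
  have hg2 : ∀ i j a b, g2 i j a b = w i a b j + w j a b i
      + (h i b * h j a + dl i b * dl j a) + (h i a * h j b + dl i a * dl j b) := by
    intro i j a b
    simp only [hg2d]
    rw [D_congr hU (dg i j a) b h0,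
      D_add hU ((s1 i).inner ℝ (s2 j a)) ((s2 i a).inner ℝ (s1 j)) b h0,
      D_inner hU (s1 i) (s2 j a) b h0, D_inner hU (s2 i a) (s1 j) b h0,
      e22, e22, real_inner_comm (D (D (D F j) a) b 0)]
    simp only [hw]
    ring
  -- the shape operator
  have hMh : ∀ x ∈ U, ∀ i j,
      ∑ l, ⟪D F i x, D F l x⟫ * M l j x = ⟪D (D F i) j x, ν x⟫ := by
    intro x hx i j; rw [hM x hx i j, eh x hx i j, neg_neg]
  have M0 : ∀ i j, M i j 0 = h i j := by
    intro i j
    have := hMh 0 h0 i j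
    simpa [horth] using this
  have dM : ∀ i j a, ∀ x ∈ U, D (fun y => ∑ l, ⟪D F i y, D F l y⟫ * M l j y) a x
      = ∑ l, (⟪D F i x, D F l x⟫ * D (M l j) a x
        + D (fun y => ⟪D F i y, D F l y⟫) a x * M l j x) := by
    intro i j a x hx
    rw [D_sum hU _ (fun l => (hgs i l).mul (hMs l j)) a hx]
    exact Finset.sum_congr rfl fun l _ => D_mul hU (hgs i l) (hMs l j) a hx
  have M1 : ∀ i j a, D (M i j) a 0 = h1 i j a := by
    intro i j a
    have := (dM i j a 0 h0).symm.trans (D_congr hU (fun y hy => hMh y hy i j) a h0)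
    simp only [horth, g10, zero_mul, add_zero] at this
    simpa [hh1] using this
  set M2 : Fin m → Fin m → Fin m → Fin m → ℝ :=
    fun i j a b => D (D (M i j) a) b 0 with hM2d
  have hM2 : ∀ i j a b, M2 i j a b + ∑ l, g2 i l a b * h l j = h2 i j a b := by
    intro i j a b
    have e1 : D (D (fun y => ∑ l, ⟪D F i y, D F l y⟫ * M l j y) a) b 0 = h2 i j a b :=
      D_congr hU (fun y hy => D_congr hU (fun z hz => hMh z hz i j) a hy) b h0
    have sg1 : ∀ l, ContDiffOn ℝ ∞ (D (fun y => ⟪D F i y, D F l y⟫) a) U :=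
      fun l => D_smooth hU (hgs i l) a
    rw [D_congr hU (dM i j a) b h0,
      D_sum hU _ (fun l => ((hgs i l).mul (m1 l j a)).add ((sg1 l).mul (hMs l j))) b h0] at e1
    have et : ∀ l, D (fun y => ⟪D F i y, D F l y⟫ * D (M l j) a y
        + D (fun y => ⟪D F i y, D F l y⟫) a y * M l j y) b 0
        = (if i = l then 1 else 0) * M2 l j a b + g2 i l a b * h l j := by
      intro l
      rw [D_add hU ((hgs i l).mul (m1 l j a)) ((sg1 l).mul (hMs l j)) b h0,
        D_mul hU (hgs i l) (m1 l j a) b h0, D_mul hU (sg1 l) (hMs l j) b h0,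
        g10 i l b, g10 i l a, M0, horth]
      simp [hg2d, hM2d]
    rw [← e1, Finset.sum_congr rfl fun l _ => et l]
    simp [Finset.sum_add_distrib]
  have htr2 : ∀ a b, ∑ i, M2 i i a b = 0 := by
    intro a b
    have e : ∀ x ∈ U, ∑ i, D (M i i) a x = 0 := by
      intro x hx
      rw [← D_sum hU _ (fun i => hMs i i) a hx]
      exact D_const_eq hU htr a hx
    have := D_const_eq hU e b h0
    rwa [D_sum hU _ (fun i => m1 i i a) b h0] at this
  have h1symm : ∀ i j a, h1 i j a = h1 j i a := by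
    intro i j a
    exact D_congr hU (fun y hy => by simp only [D_comm hU hF i j hy]) a h0
  have hS2 : ∀ a, ∑ i, ∑ j, (h i j * M2 i j a a + h1 i j a * h1 i j a)
      = D (D Φ a) a 0 / 2 := by
    intro a
    have sP : ∀ i j, ContDiffOn ℝ ∞ (fun y => M i j y * M j i y) U :=
      fun i j => (hMs i j).mul (hMs j i)
    have e : ∀ x ∈ U, ∑ i, ∑ j, (M i j x * D (M j i) a x + D (M i j) a x * M j i x)
        = D Φ a x := by
      intro x hx
      rw [D_congr hU hΦ a hx, D_sum hU _ (fun i => ContDiffOn.sum fun j _ => sP i j) a hx]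
      refine Finset.sum_congr rfl fun i _ => ?_
      rw [D_sum hU _ (fun j => sP i j) a hx]
      exact Finset.sum_congr rfl fun j _ => (D_mul hU (hMs i j) (hMs j i) a hx).symm
    have sE : ∀ i j, ContDiffOn ℝ ∞
        (fun y => M i j y * D (M j i) a y + D (M i j) a y * M j i y) U :=
      fun i j => ((hMs i j).mul (m1 j i a)).add ((m1 i j a).mul (hMs j i))
    have := D_congr hU e a h0
    rw [D_sum hU _ (fun i => ContDiffOn.sum fun j _ => sE i j) a h0] at this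
    have ev : ∀ i, D (fun y => ∑ j, (M i j y * D (M j i) a y + D (M i j) a y * M j i y)) a 0
        = ∑ j, (h i j * M2 j i a a + h j i * M2 i j a a + 2 * (h1 i j a * h1 i j a)) := by
      intro i
      rw [D_sum hU _ (fun j => sE i j) a h0]
      refine Finset.sum_congr rfl fun j _ => ?_
      rw [D_add hU ((hMs i j).mul (m1 j i a)) ((m1 i j a).mul (hMs j i)) a h0,
        D_mul hU (hMs i j) (m1 j i a) a h0, D_mul hU (m1 i j a) (hMs j i) a h0]
      simp only [M0, M1, hM2d, h1symm j i a]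
      ring
    rw [Finset.sum_congr rfl fun i _ => ev i] at this
    simp only [Finset.sum_add_distrib, ← Finset.mul_sum] at this
    have flip : ∑ i, ∑ j, h i j * M2 j i a a = ∑ i, ∑ j, h i j * M2 i j a a := by
      rw [Finset.sum_comm]
      exact Finset.sum_congr rfl fun i _ => Finset.sum_congr rfl fun j _ => by rw [hsymm j i]
    have flip' : ∑ i, ∑ j, h j i * M2 i j a a = ∑ i, ∑ j, h i j * M2 i j a a :=
      Finset.sum_congr rfl fun i _ => Finset.sum_congr rfl fun j _ => by rw [hsymm j i]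
    rw [flip, flip'] at this
    simp only [Finset.sum_add_distrib]
    linarith
  have htr0 : ∑ i, h i i = 0 := by simpa [M0] using htr 0 h0
  have hc : ∑ i, ∑ j, h i j * h i j = Φ 0 := by
    rw [hΦ 0 h0]
    simp only [M0]
    exact Finset.sum_congr rfl fun i _ => Finset.sum_congr rfl fun j _ => by rw [hsymm j i]
  have w12 : ∀ i j k l, w i j k l = w j i k l := fun i j k l => by
    simp only [hw, D_congr hU (fun y hy => D_comm hU hF i j hy) k h0]
  have w23 : ∀ i j k l, w i j k l = w i k j l := fun i j k l => by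
    simp only [hw, D_comm hU (s1 i) j k h0]
  have q12 : ∀ i j k l, q i j k l = q j i k l := fun i j k l => by
    simp only [hq, D_congr hU
      (fun y hy => D_congr hU (fun z hz => D_comm hU hF i j hz) k hy) l h0]
  have q23 : ∀ i j k l, q i j k l = q i k j l := fun i j k l => by
    simp only [hq, D_congr hU (fun y hy => D_comm hU (s1 i) j k hy) l h0]
  have q34 : ∀ i j k l, q i j k l = q i j l k := fun i j k l => by
    simp only [hq, D_comm hU (s2 i j) k l h0]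
  have := simons_algebra_le h hsymm htr0 h1 w q w12 w23 q12 q23 q34 h2 g2 M2 hh2 hg2 hM2 htr2 _
    (Finset.sum_congr rfl fun a (_ : a ∈ Finset.univ) => hS2 a)
  rw [hc, Fintype.card_fin, ← Finset.sum_div] at this
  linarith

/-- The case of constant `|A|^2`. -/
theorem simons_point {U : Set (Fin m → ℝ)} (hU : IsOpen U) (h0 : (0 : Fin m → ℝ) ∈ U)
    {F ν : (Fin m → ℝ) → EuclideanSpace ℝ (Fin (m + 2))}
    (hF : ContDiffOn ℝ ∞ F U) (hν : ContDiffOn ℝ ∞ ν U)
    (hFF : ∀ x ∈ U, ⟪F x, F x⟫ = (1:ℝ)) (hνν : ∀ x ∈ U, ⟪ν x, ν x⟫ = (1:ℝ))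
    (hνF : ∀ x ∈ U, ⟪ν x, F x⟫ = (0:ℝ))
    (hνT : ∀ x ∈ U, ∀ i, ⟪ν x, D F i x⟫ = (0:ℝ))
    (horth : ∀ i j, ⟪D F i 0, D F j 0⟫ = if i = j then (1:ℝ) else 0)
    (htan : ∀ i j l, ⟪D (D F i) j 0, D F l 0⟫ = (0:ℝ))
    (M : Fin m → Fin m → (Fin m → ℝ) → ℝ) (hMs : ∀ i j, ContDiffOn ℝ ∞ (M i j) U)
    (hM : ∀ x ∈ U, ∀ i j, ∑ l, ⟪D F i x, D F l x⟫ * M l j x = -⟪D F i x, D ν j x⟫)
    (c : ℝ) (htr : ∀ x ∈ U, ∑ i, M i i x = 0)
    (hS : ∀ x ∈ U, ∑ i, ∑ j, M i j x * M j i x = c) :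
    c * ((m : ℝ) - c) ≤ 0 := by
  have h := simons_point_le hU h0 hF hν hFF hνν hνF hνT horth htan M hMs hM htr (fun _ => c)
    fun x hx => (hS x hx).symm
  have z : ∀ a : Fin m, D (D (fun _ : Fin m → ℝ => c) a) a 0 = 0 := fun a =>
    D_const_eq hU (fun x hx => D_const_eq hU (fun _ _ => rfl) a hx) a h0
  simp only [z, Finset.sum_const_zero] at h
  nlinarith

end Vale.Agent.P224.Simons
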