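import Mathlib
import Vale.Agent.P224.Simons.Point

/-!
Simons' inequality in arbitrary coordinates, by a quadratic change of coordinates at a point.
-/

namespace Vale.Agent.P224.Simons

open scoped RealInnerProductSpace ContDiff Topology Matrix

variable {m : ℕ}

/-- quadratic coordinate change with given first and second order terms -/
noncomputable def quad (p : Fin m → ℝ) (L : Fin m → Fin m → ℝ)
    (Q : Fin m → Fin m → Fin m → ℝ) (y : Fin m → ℝ) : Fin m → ℝ :=
  p + ((∑ i, y i • L i) + (1/2 : ℝ) • ∑ i, ∑ j, (y i * y j) • Q i j)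

theorem quad_smooth (p : Fin m → ℝ) (L : Fin m → Fin m → ℝ)
    (Q : Fin m → Fin m → Fin m → ℝ) : ContDiff ℝ ∞ (quad p L Q) := by
  unfold quad; fun_prop

theorem D_quad (p : Fin m → ℝ) (L : Fin m → Fin m → ℝ)
    (Q : Fin m → Fin m → Fin m → ℝ) (hQ : ∀ i j, Q i j = Q j i) (i : Fin m) (y : Fin m → ℝ) :
    D (quad p L Q) i y = L i + ∑ j, y j • Q i j := by
  have hp : ∀ a : Fin m, HasFDerivAt (fun z : Fin m → ℝ => z a)
      (ContinuousLinearMap.proj (R := ℝ) (φ := fun _ : Fin m => ℝ) a) y :=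
    fun a => hasFDerivAt_apply a y
  have h1 := HasFDerivAt.fun_sum (u := Finset.univ) fun a (_ : a ∈ Finset.univ) =>
    (hp a).smul_const (L a)
  have h2 := HasFDerivAt.fun_sum (u := Finset.univ) fun a (_ : a ∈ Finset.univ) =>
    HasFDerivAt.fun_sum (u := Finset.univ) fun b (_ : b ∈ Finset.univ) =>
      ((hp a).mul (hp b)).smul_const (Q a b)
  have h3 : HasFDerivAt (quad p L Q) _ y := (h1.add (h2.const_smul (1/2 : ℝ))).const_add p
  unfold D
  rw [h3.fderiv]
  ext k
  simp [Pi.single_apply, Finset.sum_add_distrib, add_mul, Finset.sum_apply]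
  have : ∑ a, y a * Q a i k = ∑ a, y a * Q i a k :=
    Finset.sum_congr rfl fun a _ => by rw [hQ a i]
  rw [this]; ring

variable {W : Type*} [NormedAddCommGroup W] [NormedSpace ℝ W]

/-- chain rule in coordinates -/
theorem D_comp {f : (Fin m → ℝ) → W} {φ : (Fin m → ℝ) → (Fin m → ℝ)} {y : Fin m → ℝ}
    (hf : DifferentiableAt ℝ f (φ y)) (hφ : DifferentiableAt ℝ φ y) (i : Fin m) :
    D (fun z => f (φ z)) i y = ∑ k, (D φ i y) k • D f k (φ y) := by
  unfold D
  rw [show (fun z => f (φ z)) = f ∘ φ from rfl, fderiv_comp y hf hφ,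
    ContinuousLinearMap.comp_apply]
  conv_lhs => rw [pi_eq_sum_univ' (fderiv ℝ φ y (Pi.single i 1))]
  simp only [map_sum, map_smul]

theorem D_smul {U : Set (Fin m → ℝ)} (hU : IsOpen U) {a : (Fin m → ℝ) → ℝ}
    {f : (Fin m → ℝ) → W} (ha : ContDiffOn ℝ ∞ a U) (hf : ContDiffOn ℝ ∞ f U)
    (i : Fin m) {x : Fin m → ℝ} (hx : x ∈ U) :
    D (fun y => a y • f y) i x = a x • D f i x + D a i x • f x := by
  unfold D
  rw [fderiv_fun_smul (diffAt hU ha hx) (diffAt hU hf hx)]
  simp

/-- A minimal hypersurface piece of the sphere with constant `|A|^2 = c` has `c (m - c) ≤ 0`. -/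
theorem simons_local {U : Set (Fin m → ℝ)} (hU : IsOpen U) {p : Fin m → ℝ} (hp : p ∈ U)
    {F ν : (Fin m → ℝ) → EuclideanSpace ℝ (Fin (m + 2))}
    (hF : ContDiffOn ℝ ∞ F U) (hν : ContDiffOn ℝ ∞ ν U)
    (hFF : ∀ x ∈ U, ⟪F x, F x⟫ = (1:ℝ)) (hνν : ∀ x ∈ U, ⟪ν x, ν x⟫ = (1:ℝ))
    (hνF : ∀ x ∈ U, ⟪ν x, F x⟫ = (0:ℝ))
    (hνT : ∀ x ∈ U, ∀ i, ⟪ν x, D F i x⟫ = (0:ℝ))
    (hinj : Function.Injective (fderiv ℝ F p))
    (M : Fin m → Fin m → (Fin m → ℝ) → ℝ) (hMs : ∀ i j, ContDiffOn ℝ ∞ (M i j) U)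
    (hM : ∀ x ∈ U, ∀ i j, ∑ l, ⟪D F i x, D F l x⟫ * M l j x = -⟪D F i x, D ν j x⟫)
    (c : ℝ) (htr : ∀ x ∈ U, ∑ i, M i i x = 0)
    (hS : ∀ x ∈ U, ∑ i, ∑ j, M i j x * M j i x = c) :
    c * ((m : ℝ) - c) ≤ 0 := by
  classical
  -- an orthonormal frame
  obtain ⟨L, hL⟩ : ∃ L : Fin m → Fin m → ℝ,
      ∀ i j, ⟪fderiv ℝ F p (L i), fderiv ℝ F p (L j)⟫ = if i = j then (1:ℝ) else 0 := by
    let T := (fderiv ℝ F p).toLinearMap
    have hT : Function.Injective T := hinj
    have hr : Module.finrank ℝ (LinearMap.range T) = m := by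
      rw [LinearMap.finrank_range_of_inj hT]; simp
    let b := (stdOrthonormalBasis ℝ (LinearMap.range T)).reindex (finCongr hr)
    have hb : ∀ i, ∃ v, T v = (b i : EuclideanSpace ℝ (Fin (m + 2))) := fun i => (b i).2
    choose L hL using hb
    refine ⟨L, fun i j => ?_⟩
    have := orthonormal_iff_ite.1 b.orthonormal i j
    change ⟪T (L i), T (L j)⟫ = _
    rw [hL, hL]
    exact this
  set D2 : Fin m → Fin m → EuclideanSpace ℝ (Fin (m + 2)) :=
    fun i j => ∑ k, L i k • ∑ r, L j r • D (D F k) r p with hD2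
  have hD2s : ∀ i j, D2 i j = D2 j i := by
    intro i j
    simp only [hD2, Finset.smul_sum, smul_smul]
    rw [Finset.sum_comm]
    refine Finset.sum_congr rfl fun k _ => Finset.sum_congr rfl fun r _ => ?_
    rw [D_comm hU hF r k hp, mul_comm]
  set Q : Fin m → Fin m → Fin m → ℝ :=
    fun i j => -∑ l, ⟪D2 i j, fderiv ℝ F p (L l)⟫ • L l with hQ
  have hQs : ∀ i j, Q i j = Q j i := fun i j => by simp only [hQ, hD2s i j]
  set φ := quad p L Q with hφd
  have hφ : ContDiff ℝ ∞ φ := quad_smooth p L Q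
  have hφ0 : φ 0 = p := by simp [hφd, quad]
  let J : (Fin m → ℝ) → Matrix (Fin m) (Fin m) ℝ :=
    fun y => Matrix.of fun k i => D φ i y k
  have hJ : ∀ k i, ContDiff ℝ ∞ (fun y => J y k i) := by
    intro k i
    have := (hφ.fderiv_right (m := ∞) (by simp)).clm_apply (contDiff_const (c := Pi.single i 1))
    exact (contDiff_apply ℝ ℝ k).comp this
  have hdet : Continuous fun y => (J y).det :=
    Continuous.matrix_det (continuous_matrix fun k i => (hJ k i).continuous)
  set O := φ ⁻¹' U ∩ {y | (J y).det ≠ 0} with hO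
  have hOo : IsOpen O := (hU.preimage hφ.continuous).inter (isOpen_ne_fun hdet continuous_const)
  have J0 : ∀ k i, J 0 k i = L i k := by
    intro k i; simp [J, hφd, D_quad p L Q hQs]
  have hO0 : (0 : Fin m → ℝ) ∈ O := by
    refine ⟨by simp [hφ0, hp], ?_⟩
    have hli : LinearIndependent ℝ L := by
      apply LinearIndependent.of_comp (fderiv ℝ F p).toLinearMap
      exact (orthonormal_iff_ite.2 hL).linearIndependent
    have e : (J 0)ᵀ = Matrix.of L := by ext i k; simp [J0]
    show (J 0).det ≠ 0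
    rw [← Matrix.det_transpose, e]
    exact ((Matrix.linearIndependent_rows_iff_isUnit.1 hli).map Matrix.detMonoidHom).ne_zero
  have maps : Set.MapsTo φ O U := fun y hy => hy.1
  have comp {X : Type} [NormedAddCommGroup X] [NormedSpace ℝ X] {f : (Fin m → ℝ) → X}
      (hf : ContDiffOn ℝ ∞ f U) : ContDiffOn ℝ ∞ (fun y => f (φ y)) O :=
    hf.comp hφ.contDiffOn maps
  have chain {X : Type} [NormedAddCommGroup X] [NormedSpace ℝ X] {f : (Fin m → ℝ) → X}
      (hf : ContDiffOn ℝ ∞ f U) {y : Fin m → ℝ} (hy : y ∈ O) (i : Fin m) :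
      D (fun z => f (φ z)) i y = ∑ k, J y k i • D f k (φ y) :=
    D_comp (diffAt hU hf hy.1) (hφ.differentiable (by simp) y) i
  -- matrices
  let g : (Fin m → ℝ) → Matrix (Fin m) (Fin m) ℝ :=
    fun y => Matrix.of fun a b => ⟪D F a (φ y), D F b (φ y)⟫
  let K : (Fin m → ℝ) → Matrix (Fin m) (Fin m) ℝ :=
    fun y => Matrix.of fun a b => -⟪D F a (φ y), D ν b (φ y)⟫
  let MM : (Fin m → ℝ) → Matrix (Fin m) (Fin m) ℝ :=
    fun y => Matrix.of fun a b => M a b (φ y)
  let MG : (Fin m → ℝ) → Matrix (Fin m) (Fin m) ℝ := fun y => (J y)⁻¹ * MM y * J y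
  have hgM : ∀ y ∈ O, g y * MM y = K y := by
    intro y hy; ext a b
    simpa [g, K, MM, Matrix.mul_apply] using hM (φ y) hy.1 a b
  have hunit : ∀ y ∈ O, IsUnit (J y).det := fun y hy => isUnit_iff_ne_zero.2 hy.2
  have hMGs : ∀ i j, ContDiffOn ℝ ∞ (fun y => MG y i j) O := by
    intro i j
    have hd : ContDiff ℝ ∞ fun y => (J y).det := by
      simp only [Matrix.det_apply']
      exact ContDiff.sum fun σ _ => contDiff_const.mul (contDiff_prod fun a _ => hJ (σ a) a)
    have hadj : ∀ a b, ContDiff ℝ ∞ fun y => (J y).adjugate a b := by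
      intro a b
      simp only [Matrix.adjugate_apply, Matrix.det_apply']
      refine ContDiff.sum fun σ _ => contDiff_const.mul (contDiff_prod fun r _ => ?_)
      simp only [Matrix.updateRow_apply]
      split_ifs
      · exact contDiff_const
      · exact hJ _ _
    have hinv : ∀ a b, ContDiffOn ℝ ∞ (fun y => (J y)⁻¹ a b) O := by
      intro a b
      simp only [Matrix.inv_def, Matrix.smul_apply, Ring.inverse_eq_inv', smul_eq_mul]
      exact (hd.contDiffOn.inv fun y hy => hy.2).mul (hadj a b).contDiffOn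
    simp only [MG, Matrix.mul_apply]
    exact ContDiffOn.sum fun a _ =>
      (ContDiffOn.sum fun b _ => (hinv i b).mul (comp (hMs b a))).mul (hJ a j).contDiffOn
  refine simons_point hOo hO0 (comp hF) (comp hν) (fun y hy => hFF _ hy.1)
    (fun y hy => hνν _ hy.1) (fun y hy => hνF _ hy.1) ?_ ?_ ?_ (fun i j y => MG y i j) hMGs ?_ c
    ?_ ?_
  · intro y hy i
    simp [chain hF hy, inner_sum, inner_smul_right, hνT _ hy.1]
  · intro i j
    have e : ∀ i, D (fun z => F (φ z)) i 0 = fderiv ℝ F p (L i) := by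
      intro i
      rw [chain hF hO0, hφ0]
      conv_rhs => rw [pi_eq_sum_univ' (L i)]
      simp [J0, D]
    rw [e, e, hL]
  · intro i j l
    have e : ∀ i, D (fun z => F (φ z)) i 0 = fderiv ℝ F p (L i) := by
      intro i
      rw [chain hF hO0, hφ0]
      conv_rhs => rw [pi_eq_sum_univ' (L i)]
      simp [J0, D]
    have dJ : ∀ k, D (fun y => J y k i) j 0 = Q i j k := by
      intro k
      have : (fun y => J y k i) = fun y => L i k + ∑ r, y r * Q i r k := by
        funext y; simp [J, hφd, D_quad p L Q hQs, Finset.sum_apply]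
      rw [this]
      have h := (HasFDerivAt.fun_sum (u := Finset.univ) fun r (_ : r ∈ Finset.univ) =>
        ((hasFDerivAt_apply (𝕜 := ℝ) (F' := fun _ : Fin m => ℝ) r
          (0 : Fin m → ℝ))).mul_const (Q i r k)).const_add (L i k)
      unfold D
      rw [h.fderiv]
      simp [Pi.single_apply]
    have e2 : D (D (fun z => F (φ z)) i) j 0 = fderiv ℝ F p (Q i j) + D2 i j := by
      rw [D_congr hOo (fun y hy => chain hF hy i) j hO0,
        D_sum hOo _ (f := fun k y => J y k i • D F k (φ y))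
          (fun k => (hJ k i).contDiffOn.smul (comp (D_smooth hU hF k))) j hO0]
      rw [pi_eq_sum_univ' (Q i j), hD2, map_sum]
      simp only []
      rw [← Finset.sum_add_distrib]
      refine Finset.sum_congr rfl fun k _ => ?_
      rw [D_smul hOo (hJ k i).contDiffOn (comp (D_smooth hU hF k)) j hO0,
        chain (D_smooth hU hF k) hO0, hφ0, dJ, map_smul]
      simp only [J0, D]
      exact add_comm _ _
    rw [e2, e, inner_add_left, hQ]
    simp [map_sum, map_smul, inner_neg_left, sum_inner, inner_smul_left, hL]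
  · intro y hy i j
    have hl : ∀ i l, ⟪D (fun z => F (φ z)) i y, D (fun z => F (φ z)) l y⟫
        = ((J y)ᵀ * g y * J y) i l := by
      intro i l
      simp only [chain hF hy, sum_inner, inner_sum, inner_smul_left, inner_smul_right,
        Matrix.mul_apply, Matrix.transpose_apply, Finset.sum_mul, Finset.mul_sum, g, Matrix.of_apply,
        RCLike.conj_to_real]
      refine Finset.sum_congr rfl fun a _ => Finset.sum_congr rfl fun b _ => ?_
      rw [real_inner_comm]; ring
    have hr : -⟪D (fun z => F (φ z)) i y, D (fun z => ν (φ z)) j y⟫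
        = ((J y)ᵀ * K y * J y) i j := by
      simp only [chain hF hy, chain hν hy, sum_inner, inner_sum, inner_smul_left,
        inner_smul_right, Matrix.mul_apply, Matrix.transpose_apply, Finset.sum_mul, Finset.mul_sum, K,
        Matrix.of_apply, RCLike.conj_to_real, ← Finset.sum_neg_distrib]
      refine Finset.sum_congr rfl fun a _ => Finset.sum_congr rfl fun b _ => ?_
      rw [real_inner_comm]; ring
    rw [hr]
    simp only [hl]
    rw [← Matrix.mul_apply]
    show ((J y)ᵀ * g y * J y * ((J y)⁻¹ * MM y * J y)) i j = _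
    rw [← hgM y hy]
    simp [Matrix.mul_assoc, Matrix.mul_nonsing_inv_cancel_left _ _ (hunit y hy)]
  · intro y hy
    show Matrix.trace ((J y)⁻¹ * MM y * J y) = 0
    rw [Matrix.trace_mul_cycle, Matrix.mul_nonsing_inv _ (hunit y hy), Matrix.one_mul]
    exact htr _ hy.1
  · intro y hy
    have e : ∑ a, ∑ b, MG y a b * MG y b a = Matrix.trace (MG y * MG y) := by
      simp [Matrix.trace, Matrix.mul_apply]
    rw [e]
    have e2 : MG y * MG y = (J y)⁻¹ * (MM y * MM y) * J y := by
      simp [MG, Matrix.mul_assoc, Matrix.mul_nonsing_inv_cancel_left _ _ (hunit y hy)]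
    rw [e2, Matrix.trace_mul_cycle, Matrix.mul_nonsing_inv _ (hunit y hy), Matrix.one_mul]
    simpa [Matrix.trace, Matrix.mul_apply, MM] using hS (φ y) hy.1

end Vale.Agent.P224.Simons
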