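import Mathlib
import Vale.Agent.P224.Defs
import Vale.Agent.P224.Simons.Reparam

/-!
A minimal hypersurface of the sphere with constant `|A|^2 = c > 0` has `c ≥ m`.
-/

namespace Vale.Agent.P224

open scoped RealInnerProductSpace ContDiff Topology Matrix

variable {m : ℕ}

/-- Constant `|A|^2 = c > 0` forces `m ≤ c` on a minimal piece of hypersurface of the sphere. -/
theorem csc_ge {U : Set (E m)} (hU : IsOpen U) (hne : U.Nonempty) {f ν : E m → E (m + 2)}
    (hf : ContDiffOn ℝ ∞ f U) (hν : ContDiffOn ℝ ∞ ν U) (hs : ∀ p ∈ U, ‖f p‖ = 1)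
    (hg : ∀ p ∈ U, (metric f p).det ≠ 0) (hn : ∀ p ∈ U, IsUnitNormal f p (ν p))
    (hH : ∀ p ∈ U, meanCurv f p (ν p) = 0) {c : ℝ} (hc : 0 < c)
    (hS : ∀ p ∈ U, normSq f p (ν p) = c) : (m : ℝ) ≤ c := by
  classical
  obtain ⟨p, hp⟩ := hne
  let e := (EuclideanSpace.equiv (Fin m) ℝ).symm
  set F := f ∘ e with hFdef
  set N := ν ∘ e with hNdef
  set O := e ⁻¹' U with hOdef
  have hO : IsOpen O := hU.preimage e.continuous
  have hF : ContDiffOn ℝ ∞ F O := hf.comp e.contDiff.contDiffOn fun x hx => hx
  have hN : ContDiffOn ℝ ∞ N O := hν.comp e.contDiff.contDiffOn fun x hx => hx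
  have hsingle : ∀ i : Fin m, e (Pi.single i 1) = EuclideanSpace.single i 1 := fun i => rfl
  have transf : ∀ (h : E m → E (m + 2)) i x, Simons.D (h ∘ e) i x = D h i (e x) := by
    intro h i x
    simp only [Simons.D, D, e.comp_right_fderiv, ← hsingle]
    rfl
  have transf2 : ∀ i j x, Simons.D (Simons.D F i) j x = D (D f i) j (e x) := by
    intro i j x
    have : Simons.D F i = (D f i) ∘ e := funext fun y => transf f i y
    rw [this, transf (D f i) j x]
  have hνT : ∀ x ∈ O, ∀ i, ⟪N x, Simons.D F i x⟫ = (0:ℝ) := by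
    intro x hx i
    rw [hFdef, transf, real_inner_comm]
    exact (hn _ hx).2.2 i
  have hII : ∀ x ∈ O, ∀ i j,
      secondForm f (e x) (ν (e x)) i j = -⟪Simons.D F i x, Simons.D N j x⟫ := by
    intro x hx i j
    have := Simons.D_const_eq hO (fun y hy => hνT y hy i) j hx
    rw [Simons.D_inner hO hN (Simons.D_smooth hO hF i) j hx] at this
    have e0 : secondForm f (e x) (ν (e x)) i j = ⟪N x, Simons.D (Simons.D F i) j x⟫ := by
      rw [transf2, real_inner_comm]; rfl
    rw [e0, real_inner_comm (Simons.D N j x)]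
    linarith
  have hgm : ∀ x i l, metric f (e x) i l = ⟪Simons.D F i x, Simons.D F l x⟫ := by
    intro x i l; rw [hFdef, transf, transf]; rfl
  -- smoothness of the shape operator
  have gs : ∀ i l, ContDiffOn ℝ ∞ (fun x => metric f (e x) i l) O := by
    intro i l
    simp only [hgm]
    exact (Simons.D_smooth hO hF i).inner ℝ (Simons.D_smooth hO hF l)
  have hs' : ∀ i l, ContDiffOn ℝ ∞ (fun x => secondForm f (e x) (ν (e x)) i l) O := fun i l =>
    (((Simons.D_smooth hO hF i).inner ℝ (Simons.D_smooth hO hN l)).neg).congr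
      fun x hx => hII x hx i l
  have Ms : ∀ i j, ContDiffOn ℝ ∞ (fun x => shapeOp f (e x) (ν (e x)) i j) O := by
    intro i j
    have hd : ContDiffOn ℝ ∞ (fun x => (metric f (e x)).det) O := by
      simp only [Matrix.det_apply']
      exact ContDiffOn.sum fun σ _ => contDiffOn_const.mul (contDiffOn_prod fun a _ => gs (σ a) a)
    have hadj : ∀ a b, ContDiffOn ℝ ∞ (fun x => (metric f (e x)).adjugate a b) O := by
      intro a b
      simp only [Matrix.adjugate_apply, Matrix.det_apply']
      refine ContDiffOn.sum fun σ _ => contDiffOn_const.mul (contDiffOn_prod fun r _ => ?_)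
      simp only [Matrix.updateRow_apply]
      split_ifs
      · exact contDiffOn_const
      · exact gs _ _
    simp only [shapeOp, Matrix.mul_apply, Matrix.inv_def, Matrix.smul_apply,
      Ring.inverse_eq_inv', smul_eq_mul]
    exact ContDiffOn.sum fun a _ =>
      ((hd.inv fun x hx => hg _ hx).mul (hadj i a)).mul (hs' a j)
  have hp' : e.symm p ∈ O := by simpa [hOdef] using hp
  have hinj : Function.Injective (fderiv ℝ F (e.symm p)) := by
    refine (injective_iff_map_eq_zero _).2 fun v hv => ?_
    have hsum : fderiv ℝ F (e.symm p) v = ∑ l, v l • Simons.D F l (e.symm p) := by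
      conv_lhs => rw [pi_eq_sum_univ' v]
      simp [Simons.D]
    have hz : metric f p *ᵥ v = 0 := by
      funext a
      have hga : ∀ l, metric f p a l = ⟪Simons.D F a (e.symm p), Simons.D F l (e.symm p)⟫ :=
        fun l => by rw [← hgm, e.apply_symm_apply]
      have : ⟪Simons.D F a (e.symm p), fderiv ℝ F (e.symm p) v⟫ = (0:ℝ) := by rw [hv]; simp
      rw [hsum] at this
      simpa [Matrix.mulVec, dotProduct, hga, inner_sum, inner_smul_right, mul_comm] using this
    exact Matrix.eq_zero_of_mulVec_eq_zero (hg p hp) hz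
  have key := Simons.simons_local hO hp' hF hN
    (fun x hx => by rw [real_inner_self_eq_norm_sq]; simp [hFdef, hs _ hx])
    (fun x hx => by rw [real_inner_self_eq_norm_sq]; simp [hNdef, (hn _ hx).1])
    (fun x hx => by rw [real_inner_comm]; exact (hn _ hx).2.1)
    hνT hinj (fun i j x => shapeOp f (e x) (ν (e x)) i j) Ms
    (fun x hx i j => by
      simp only [← hgm, ← hII x hx]
      rw [← Matrix.mul_apply, shapeOp, ← Matrix.mul_assoc,
        Matrix.mul_nonsing_inv _ (isUnit_iff_ne_zero.2 (hg _ hx)), Matrix.one_mul])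
    c (fun x hx => by simpa [meanCurv, Matrix.trace] using hH _ hx)
    (fun x hx => by simpa [normSq, Matrix.trace, Matrix.mul_apply] using hS _ hx)
  nlinarith

end Vale.Agent.P224
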